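import Mathlib

/-!
P328: the window lemma of helper74's report 1244 (a weighted Poincaré inequality on a path with
log-concave weights), as a statement about real sequences.
-/

namespace Vale.Agent.Lib.P328.RP.Window

open Finset

/-- Cauchy-Schwarz addition step. -/
theorem cs_add {x y A B r e : ℝ} (hA : 0 ≤ A) (hB : 0 ≤ B) (hr : 0 ≤ r) (he : 0 ≤ e)
    (hx : x ^ 2 ≤ A * B) (hy : y ^ 2 ≤ r * e) : (x + y) ^ 2 ≤ (A + r) * (B + e) := by
  have h1 : (x * y) ^ 2 ≤ (A * e) * (r * B) := by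
    calc (x * y) ^ 2 = x ^ 2 * y ^ 2 := by ring
      _ ≤ (A * B) * (r * e) := mul_le_mul hx hy (sq_nonneg _) (mul_nonneg hA hB)
      _ = (A * e) * (r * B) := by ring
  have h2 : (2 * x * y) ^ 2 ≤ (A * e + r * B) ^ 2 := by
    nlinarith [sq_nonneg (A * e - r * B)]
  have h3 : 0 ≤ A * e + r * B := add_nonneg (mul_nonneg hA he) (mul_nonneg hr hB)
  have h4 : 2 * x * y ≤ A * e + r * B := (abs_le_of_sq_le_sq' h2 h3).2
  nlinarith

/-- Prefix sums. -/
def pre (e : ℕ → ℝ) (n : ℕ) : ℝ := ∑ τ ∈ range n, e τ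

theorem pre_succ (e : ℕ → ℝ) (n : ℕ) : pre e (n + 1) = pre e n + e n := by
  unfold pre
  rw [sum_range_succ]

/-- Cauchy-Schwarz along a path. -/
theorem path_bound (φ0 R e : ℕ → ℝ) (x A B : ℝ) (hA : 0 ≤ A) (hB : 0 ≤ B) (hx : x ^ 2 ≤ A * B)
    (i : ℕ) : ∀ k : ℕ,
    (∀ τ, i ≤ τ → τ < i + k → 0 ≤ e τ) →
    (∀ τ, i ≤ τ → τ < i + k → R (τ + 1) ≤ R τ) →
    (∀ τ, i ≤ τ → τ < i + k → (φ0 (τ + 1) - φ0 τ) ^ 2 ≤ (R τ - R (τ + 1)) * e τ) →
    R (i + k) ≤ R i ∧ pre e i ≤ pre e (i + k) ∧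
      (x + (φ0 (i + k) - φ0 i)) ^ 2 ≤ (A + (R i - R (i + k))) * (B + (pre e (i + k) - pre e i)) := by
  intro k
  induction k with
  | zero =>
    intro _ _ _
    refine ⟨le_refl _, le_refl _, ?_⟩
    simpa using hx
  | succ k ih =>
    intro he hR hstep
    obtain ⟨h1, h2, h3⟩ := ih (fun τ h h' => he τ h (by omega)) (fun τ h h' => hR τ h (by omega))
      (fun τ h h' => hstep τ h (by omega))
    have e0 := he (i + k) (by omega) (by omega)
    have r0 := hR (i + k) (by omega) (by omega)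
    have s0 := hstep (i + k) (by omega) (by omega)
    have hk : i + (k + 1) = i + k + 1 := by ring
    rw [hk, pre_succ]
    refine ⟨by linarith, by linarith, ?_⟩
    have key := cs_add (x := x + (φ0 (i + k) - φ0 i)) (y := φ0 (i + k + 1) - φ0 (i + k))
      (A := A + (R i - R (i + k))) (B := B + (pre e (i + k) - pre e i))
      (r := R (i + k) - R (i + k + 1)) (e := e (i + k))
      (by linarith) (by linarith) (by linarith) e0 h3 s0
    calc (x + (φ0 (i + k + 1) - φ0 i)) ^ 2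
        = (x + (φ0 (i + k) - φ0 i) + (φ0 (i + k + 1) - φ0 (i + k))) ^ 2 := by ring
      _ ≤ (A + (R i - R (i + k)) + (R (i + k) - R (i + k + 1)))
            * (B + (pre e (i + k) - pre e i) + e (i + k)) := key
      _ = (A + (R i - R (i + k + 1))) * (B + (pre e (i + k) + e (i + k) - pre e i)) := by ring

/-- Summation by parts. -/
theorem sum_parts (a e : ℕ → ℝ) (j : ℕ) :
    ∑ i ∈ range j, a i * (pre e j - pre e i) = ∑ τ ∈ range j, e τ * ∑ i ∈ range (τ + 1), a i := by
  induction j with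
  | zero => simp
  | succ j ih =>
    rw [sum_range_succ, sum_range_succ, ← ih, pre_succ]
    have : ∑ i ∈ range j, a i * (pre e j + e j - pre e i)
        = ∑ i ∈ range j, a i * (pre e j - pre e i) + e j * ∑ i ∈ range j, a i := by
      rw [mul_sum, ← sum_add_distrib]
      apply sum_congr rfl
      intro i _
      ring
    rw [this, sum_range_succ]
    ring


/-- The bound for the pairs with top index `j`. -/
theorem A_bound (w φ0 e : ℕ → ℝ) (σ : ℝ) (j : ℕ) (hj : 1 ≤ j)
    (hw : ∀ i, i ≤ j → 0 < w i)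
    (he : ∀ i, i < j → 0 ≤ e i)
    (hlc : ∀ i, i < j → w i * w (i + 2) ≤ w (i + 1) * w (i + 1))
    (hinc : ∀ i, i < j →
      (φ0 (i + 1) - φ0 i) ^ 2 ≤ (w (i + 1) / w i - w (i + 2) / w (i + 1)) * e i) :
    ∑ i ∈ range j, w i * (φ0 j - (φ0 i + if i = 0 then σ else 0)) ^ 2
      ≤ σ ^ 2 * (w 0 + w 1 - w 0 * (w (j + 1) / w j))
        + ∑ τ ∈ range j, e τ * ((∑ i ∈ range (τ + 1), w i) + w (τ + 1)
            - (w (j + 1) / w j) * ∑ i ∈ range (τ + 1), w i) := by
  set R : ℕ → ℝ := fun τ => w (τ + 1) / w τ with hRdef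
  have hRanti : ∀ τ, τ < j → R (τ + 1) ≤ R τ := by
    intro τ hτ
    have h1 := hw τ (by omega)
    have h2 := hw (τ + 1) (by omega)
    show w (τ + 1 + 1) / w (τ + 1) ≤ w (τ + 1) / w τ
    rw [div_le_div_iff₀ h2 h1]
    have := hlc τ hτ
    have e2 : τ + 1 + 1 = τ + 2 := by ring
    rw [e2]
    linarith
  -- the coefficients
  set a : ℕ → ℝ := fun i => (if i = 0 then w 0 else 0) + w (i + 1) - R j * w i with hadef
  have hper : ∀ i ∈ range j, w i * (φ0 j - (φ0 i + if i = 0 then σ else 0)) ^ 2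
      ≤ (if i = 0 then σ ^ 2 * (w 0 + w 1 - w 0 * R j) else 0) + a i * (pre e j - pre e i) := by
    intro i hi
    rw [mem_range] at hi
    have hwi := hw i (by omega)
    have hij : i + (j - i) = j := by omega
    by_cases h0 : i = 0
    · subst h0
      have pb := path_bound φ0 R e (-σ) 1 (σ ^ 2) zero_le_one (sq_nonneg σ) (by nlinarith) 0 (j - 0)
        (fun τ _ h' => he τ (by omega)) (fun τ _ h' => hRanti τ (by omega))
        (fun τ _ h' => hinc τ (by omega))
      rw [hij] at pb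
      obtain ⟨p1, p2, p3⟩ := pb
      have hR0 : w 0 * R 0 = w 1 := by
        show w 0 * (w (0 + 1) / w 0) = w 1
        rw [zero_add]
        field_simp
      have e1 : (φ0 j - (φ0 0 + if (0 : ℕ) = 0 then σ else 0)) = -σ + (φ0 j - φ0 0) := by
        simp
        ring
      rw [e1, if_pos rfl]
      have e2 : a 0 = w 0 * (1 + (R 0 - R j)) := by
        show (if (0 : ℕ) = 0 then w 0 else 0) + w (0 + 1) - R j * w 0 = w 0 * (1 + (R 0 - R j))
        rw [if_pos rfl, zero_add]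
        linarith [hR0]
      rw [e2]
      have e3 : σ ^ 2 * (w 0 + w 1 - w 0 * R j) = w 0 * (1 + (R 0 - R j)) * σ ^ 2 := by
        rw [← hR0]; ring
      rw [e3]
      have := mul_le_mul_of_nonneg_left p3 hwi.le
      calc w 0 * (-σ + (φ0 j - φ0 0)) ^ 2
          ≤ w 0 * ((1 + (R 0 - R j)) * (σ ^ 2 + (pre e j - pre e 0))) := this
        _ = w 0 * (1 + (R 0 - R j)) * σ ^ 2 + w 0 * (1 + (R 0 - R j)) * (pre e j - pre e 0) := by
          ring
    · have pb := path_bound φ0 R e 0 0 0 (le_refl _) (le_refl _) (by norm_num) i (j - i)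
        (fun τ _ h' => he τ (by omega)) (fun τ _ h' => hRanti τ (by omega))
        (fun τ _ h' => hinc τ (by omega))
      rw [hij] at pb
      obtain ⟨p1, p2, p3⟩ := pb
      have hRi : w i * R i = w (i + 1) := by
        show w i * (w (i + 1) / w i) = w (i + 1)
        field_simp
      rw [if_neg h0, if_neg h0, add_zero, zero_add]
      have e2 : a i = w i * (R i - R j) := by
        show (if i = 0 then w 0 else 0) + w (i + 1) - R j * w i = w i * (R i - R j)
        rw [if_neg h0, zero_add]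
        linarith [hRi]
      rw [e2]
      have := mul_le_mul_of_nonneg_left p3 hwi.le
      simp only [zero_add] at this
      calc w i * (φ0 j - φ0 i) ^ 2 ≤ w i * ((R i - R j) * (pre e j - pre e i)) := this
        _ = w i * (R i - R j) * (pre e j - pre e i) := by ring
  have hsum := sum_le_sum hper
  rw [sum_add_distrib, sum_parts] at hsum
  have h0mem : 0 ∈ range j := by rw [mem_range]; omega
  have hfirst : ∑ i ∈ range j, (if i = 0 then σ ^ 2 * (w 0 + w 1 - w 0 * R j) else 0)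
      = σ ^ 2 * (w 0 + w 1 - w 0 * R j) := by
    rw [sum_ite_eq' (range j) 0 (fun _ => σ ^ 2 * (w 0 + w 1 - w 0 * R j)), if_pos h0mem]
  rw [hfirst] at hsum
  have hcoef : ∀ τ ∈ range j, e τ * ∑ i ∈ range (τ + 1), a i
      = e τ * ((∑ i ∈ range (τ + 1), w i) + w (τ + 1) - R j * ∑ i ∈ range (τ + 1), w i) := by
    intro τ _
    congr 1
    have h1 : ∑ i ∈ range (τ + 1), a i
        = (∑ i ∈ range (τ + 1), (if i = 0 then w 0 else 0)) + (∑ i ∈ range (τ + 1), w (i + 1))
          - R j * ∑ i ∈ range (τ + 1), w i := by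
      rw [mul_sum, ← sum_add_distrib, ← sum_sub_distrib]
    have h2 : ∑ i ∈ range (τ + 1), (if i = 0 then w 0 else 0) = w 0 := by
      rw [sum_ite_eq' (range (τ + 1)) 0 (fun _ => w 0), if_pos (by rw [mem_range]; omega)]
    have h3 : ∑ i ∈ range (τ + 1), w (i + 1) = (∑ i ∈ range (τ + 1), w i) + w (τ + 1) - w 0 := by
      have := sum_range_succ' w (τ + 1)
      rw [sum_range_succ] at this
      linarith
    rw [h1, h2, h3]
    ring
  rw [sum_congr rfl hcoef] at hsum
  exact hsum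


/-- The variance identity: adding one point. -/
theorem var_step (W S M ω c : ℝ) :
    (W + ω) * (S + ω * c ^ 2) - (M + ω * c) ^ 2
      = (W * S - M ^ 2) + ω * (W * c ^ 2 - 2 * c * M + S) := by
  ring

theorem sum_sq_expand (w φ : ℕ → ℝ) (c : ℝ) (n : ℕ) :
    ∑ i ∈ range n, w i * (c - φ i) ^ 2
      = (∑ i ∈ range n, w i) * c ^ 2 - 2 * c * (∑ i ∈ range n, w i * φ i)
        + ∑ i ∈ range n, w i * φ i ^ 2 := by
  rw [sum_mul, mul_sum, ← sum_sub_distrib, ← sum_add_distrib]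
  apply sum_congr rfl
  intro i _
  ring

/-- The exact inductive bound for the weighted variance. -/
theorem D_bound (w φ0 e : ℕ → ℝ) (σ : ℝ) : ∀ N : ℕ,
    (∀ i, i ≤ N → 0 < w i) →
    (∀ i, i < N → 0 ≤ e i) →
    (∀ i, i < N → w i * w (i + 2) ≤ w (i + 1) * w (i + 1)) →
    (∀ i, i < N →
      (φ0 (i + 1) - φ0 i) ^ 2 ≤ (w (i + 1) / w i - w (i + 2) / w (i + 1)) * e i) →
    (∑ i ∈ range (N + 1), w i)
        * (∑ i ∈ range (N + 1), w i * (φ0 i + if i = 0 then σ else 0) ^ 2)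
      - (∑ i ∈ range (N + 1), w i * (φ0 i + if i = 0 then σ else 0)) ^ 2
    ≤ ∑ τ ∈ range N, e τ * (w (τ + 1) * (∑ i ∈ range (N + 1), w i)
          - w (N + 1) * ∑ i ∈ range (τ + 1), w i)
      + σ ^ 2 * (w 1 * (∑ i ∈ range (N + 1), w i) - w 0 * w (N + 1)) := by
  intro N
  induction N with
  | zero =>
    intro _ _ _ _
    simp only [zero_add, sum_range_one, range_zero, sum_empty, if_pos]
    apply le_of_eq
    ring
  | succ N ih =>
    intro hw he hlc hinc
    have IH := ih (fun i h => hw i (by omega)) (fun i h => he i (by omega))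
      (fun i h => hlc i (by omega)) (fun i h => hinc i (by omega))
    have AB := A_bound w φ0 e σ (N + 1) (by omega) hw he hlc hinc
    have hwN : 0 < w (N + 1) := hw (N + 1) (le_refl _)
    set φ : ℕ → ℝ := fun i => φ0 i + if i = 0 then σ else 0 with hφ
    have hφN : φ (N + 1) = φ0 (N + 1) := by
      show φ0 (N + 1) + (if N + 1 = 0 then σ else 0) = φ0 (N + 1)
      rw [if_neg (by omega), add_zero]
    set W : ℝ := ∑ i ∈ range (N + 1), w i with hW
    set S : ℝ := ∑ i ∈ range (N + 1), w i * φ i ^ 2 with hS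
    set M : ℝ := ∑ i ∈ range (N + 1), w i * φ i with hM
    have AB' : ∑ i ∈ range (N + 1), w i * (φ0 (N + 1) - φ i) ^ 2
        ≤ σ ^ 2 * (w 0 + w 1 - w 0 * (w (N + 1 + 1) / w (N + 1)))
          + ∑ τ ∈ range (N + 1), e τ * ((∑ i ∈ range (τ + 1), w i) + w (τ + 1)
              - (w (N + 1 + 1) / w (N + 1)) * ∑ i ∈ range (τ + 1), w i) := AB
    rw [sum_sq_expand w φ (φ0 (N + 1)) (N + 1)] at AB'
    -- multiply by w (N+1)
    have AB2 := mul_le_mul_of_nonneg_left AB' hwN.le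
    have hdiv : w (N + 1) * (w (N + 1 + 1) / w (N + 1)) = w (N + 1 + 1) := by
      field_simp
    have hsumeq : w (N + 1) * ∑ τ ∈ range (N + 1), e τ * ((∑ i ∈ range (τ + 1), w i) + w (τ + 1)
              - (w (N + 1 + 1) / w (N + 1)) * ∑ i ∈ range (τ + 1), w i)
        = ∑ τ ∈ range (N + 1), e τ * (w (N + 1) * (∑ i ∈ range (τ + 1), w i)
            + w (N + 1) * w (τ + 1) - w (N + 1 + 1) * ∑ i ∈ range (τ + 1), w i) := by
      rw [mul_sum]
      apply sum_congr rfl
      intro τ _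
      have : w (N + 1) * (e τ * ((∑ i ∈ range (τ + 1), w i) + w (τ + 1)
              - (w (N + 1 + 1) / w (N + 1)) * ∑ i ∈ range (τ + 1), w i))
          = e τ * (w (N + 1) * (∑ i ∈ range (τ + 1), w i) + w (N + 1) * w (τ + 1)
              - (w (N + 1) * (w (N + 1 + 1) / w (N + 1))) * ∑ i ∈ range (τ + 1), w i) := by
        ring
      rw [this, hdiv]
    have AB3 : w (N + 1) * (W * φ0 (N + 1) ^ 2 - 2 * φ0 (N + 1) * M + S)
        ≤ σ ^ 2 * (w 0 * w (N + 1) + w 1 * w (N + 1) - w 0 * w (N + 1 + 1))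
          + ∑ τ ∈ range (N + 1), e τ * (w (N + 1) * (∑ i ∈ range (τ + 1), w i)
            + w (N + 1) * w (τ + 1) - w (N + 1 + 1) * ∑ i ∈ range (τ + 1), w i) := by
      rw [← hsumeq]
      calc w (N + 1) * (W * φ0 (N + 1) ^ 2 - 2 * φ0 (N + 1) * M + S)
          ≤ w (N + 1) * (σ ^ 2 * (w 0 + w 1 - w 0 * (w (N + 1 + 1) / w (N + 1)))
            + ∑ τ ∈ range (N + 1), e τ * ((∑ i ∈ range (τ + 1), w i) + w (τ + 1)
              - (w (N + 1 + 1) / w (N + 1)) * ∑ i ∈ range (τ + 1), w i)) := AB2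
        _ = σ ^ 2 * (w 0 * w (N + 1) + w 1 * w (N + 1)
              - w 0 * (w (N + 1) * (w (N + 1 + 1) / w (N + 1))))
            + w (N + 1) * ∑ τ ∈ range (N + 1), e τ * ((∑ i ∈ range (τ + 1), w i) + w (τ + 1)
              - (w (N + 1 + 1) / w (N + 1)) * ∑ i ∈ range (τ + 1), w i) := by ring
        _ = _ := by rw [hdiv]
    -- expand the sums at N+2
    rw [sum_range_succ w (N + 1), sum_range_succ (fun i => w i * φ i ^ 2) (N + 1),
      sum_range_succ (fun i => w i * φ i) (N + 1), hφN, var_step]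
    -- the U difference
    have hU : ∑ τ ∈ range (N + 1), e τ * (w (τ + 1) * (W + w (N + 1))
          - w (N + 1 + 1) * ∑ i ∈ range (τ + 1), w i)
        = ∑ τ ∈ range N, e τ * (w (τ + 1) * W - w (N + 1) * ∑ i ∈ range (τ + 1), w i)
          + ∑ τ ∈ range (N + 1), e τ * (w (N + 1) * (∑ i ∈ range (τ + 1), w i)
            + w (N + 1) * w (τ + 1) - w (N + 1 + 1) * ∑ i ∈ range (τ + 1), w i) := by
      rw [sum_range_succ, sum_range_succ (fun τ => e τ * (w (N + 1) * (∑ i ∈ range (τ + 1), w i)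
            + w (N + 1) * w (τ + 1) - w (N + 1 + 1) * ∑ i ∈ range (τ + 1), w i)) N,
        ← add_assoc, ← sum_add_distrib]
      congr 1
      · apply sum_congr rfl
        intro τ _
        ring
      · rw [← hW]
        ring
    rw [hU]
    linarith [IH, AB3]

/-- **Window lemma** (weighted Poincaré inequality on a path with log-concave weights and a
point perturbation at the left end). -/
theorem window_lemma (N : ℕ) (w φ0 e : ℕ → ℝ) (σ : ℝ)
    (hw : ∀ i, i ≤ N → 0 < w i) (hw1 : 0 ≤ w (N + 1))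
    (he : ∀ i, i < N → 0 ≤ e i)
    (hlc : ∀ i, i < N → w i * w (i + 2) ≤ w (i + 1) * w (i + 1))
    (hinc : ∀ i, i < N →
      (φ0 (i + 1) - φ0 i) ^ 2 ≤ (w (i + 1) / w i - w (i + 2) / w (i + 1)) * e i) :
    (∑ i ∈ range (N + 1), w i)
        * (∑ i ∈ range (N + 1), w i * (φ0 i + if i = 0 then σ else 0) ^ 2)
      - (∑ i ∈ range (N + 1), w i * (φ0 i + if i = 0 then σ else 0)) ^ 2
    ≤ (∑ i ∈ range (N + 1), w i) * (∑ i ∈ range N, w (i + 1) * e i + σ ^ 2 * w 1) := by
  have h := D_bound w φ0 e σ N hw he hlc hinc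
  have hX : ∀ τ, τ < N → 0 ≤ ∑ i ∈ range (τ + 1), w i := by
    intro τ hτ
    apply sum_nonneg
    intro i hi
    rw [mem_range] at hi
    exact (hw i (by omega)).le
  have h2 : ∑ τ ∈ range N, e τ * (w (τ + 1) * (∑ i ∈ range (N + 1), w i)
          - w (N + 1) * ∑ i ∈ range (τ + 1), w i)
      ≤ ∑ τ ∈ range N, (∑ i ∈ range (N + 1), w i) * (w (τ + 1) * e τ) := by
    apply sum_le_sum
    intro τ hτ
    rw [mem_range] at hτ
    have := mul_nonneg (he τ hτ) (mul_nonneg hw1 (hX τ hτ))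
    nlinarith
  rw [← mul_sum] at h2
  have h3 : 0 ≤ σ ^ 2 * (w 0 * w (N + 1)) :=
    mul_nonneg (sq_nonneg σ) (mul_nonneg (hw 0 (by omega)).le hw1)
  nlinarith

end Vale.Agent.Lib.P328.RP.Window
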